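import Vale.Agent.P281Z.Top

/-!
# P281Z: Fujiki's class, as the class of the images of compact Kähler manifolds
-/

open Vale.Agent.P281.H713.TZ.S
open Vale.Agent.P281.H64.StatV (Kahler)
open scoped Manifold ContDiff

namespace Vale.Agent.P281Z.Top

/-- `X` is the image of a compact Kähler manifold by a holomorphic map. -/
def Fujiki (n : ℕ) (X : Type) [TopologicalSpace X] [ChartedSpace (Cm n) X] : Prop :=
  ∃ (m : ℕ) (V : Type) (_ : TopologicalSpace V) (_ : ChartedSpace (Cm m) V) (g : V → X),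
    T2Space V ∧ CompactSpace V ∧ IsManifold 𝓘(ℂ, Cm m) ω V ∧ Kahler m V ∧
      ContMDiff 𝓘(ℂ, Cm m) 𝓘(ℂ, Cm n) ω g ∧ Function.Surjective g

end Vale.Agent.P281Z.Top
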