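import Vale.Agent.P281Z.Cl.Defs
import Vale.Agent.P281Z.Ky.All

/-!
# P281Z: the image of a compact Kähler manifold has a Kähler modification
-/

open Set
open Vale.Agent.P272.K (Cm)
open Vale.Agent.P281.H303.StatC (ClassC)
open scoped Manifold ContDiff

namespace Vale.Agent.P281Z

/-- **KY**, for a source which is maybe not connected -/
theorem Ky.ky' {n p : ℕ} (V : Mf n) (Y : Mf p) (f : V.X → Y.X) (hV : V.Kah) (hf : HolM n p f)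
    (hs : Function.Surjective f) :
    ∃ (Y₁ : Mf p) (v : Y₁.X → Y.X) (B : Set Y.X), Modif p v B ∧ Y₁.Kah := by
  obtain ⟨K⟩ := Ky.stKC n p V Y f hV hf hs
  obtain ⟨A⟩ := Ky.stGl p Y K
  obtain ⟨Y₁, π, r, G, c, v, k1, k2, k3, k4⟩ := Ky.stResp_of P277Z.Hir.stMain p Y A.I A.thin
  exact ⟨Y₁, π, _, k1, Ky.stKup p p Y₁ Y π k1.2.hol (Ky.stRel p p Y₁ Y π r G c v k1.2.hol k3 k4)
    (Ky.stUp Ky.stSup Ky.stUnit p Y₁ Y π A k1.2.hol k1.2.dense k2)⟩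

namespace Top

variable {n : ℕ} {X : Type} [TopologicalSpace X] [ChartedSpace (Cm n) X]

theorem Fujiki.classC [T2Space X] [CompactSpace X] [IsManifold 𝓘(ℂ, Cm n) ω X] (h : Fujiki n X) :
    ClassC n X := by
  obtain ⟨m, V, _, _, g, _, _, _, h1, h2, h3⟩ := h
  obtain ⟨Y₁, v, B, k1, k2⟩ := Ky.ky' (⟨V⟩ : Mf m) (⟨X⟩ : Mf n) g h1 h2 h3
  exact ⟨Y₁.X, _, _, v, ⟨⟨‹_›, Y₁.t2, ‹_›, Y₁.mf⟩, k1.2.hol, k1.2.hol.cont.isProperMap, Bᶜ,
    k1.1.closed.isOpen_compl, k1.1.2, k1.2.dense, fun y hy => k1.2.one y trivial hy⟩, k2⟩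

theorem fujiki_of [CompactSpace X] (h : ClassC n X) : Fujiki n X := by
  obtain ⟨V, _, _, u, ⟨⟨_, h1, _, h2⟩, h3, h4, U, -, h5, -, h6⟩, h7⟩ := h
  refine ⟨n, V, _, _, u, h1, ⟨h4.isCompact_preimage isCompact_univ⟩, h2, h7, h3, fun x => ?_⟩
  exact closure_minimal (fun y hy => (h6 y hy).exists) h4.isClosedMap.isClosed_range (h5 x)

end Top

end Vale.Agent.P281Z
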